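import Vale.Agent.N257.Top

/-!
# P257: Smith-Toda complexes `V(n)` exist for `p > 2 ^ n`

Let `p ≥ 5` be a prime with `p > 2 ^ n`. Then `V(n)` exists, and there is a tower
`S, V(0), …, V(n)` in which `V(k)` is a finite `p`-local Smith-Toda complex and the cofibre of a
self map of `V(k - 1)` which induces the multiplication by `v_k` in `BP`-homology. This holds in
the localization of orthogonal spectra at the `π_*`-isomorphisms, and in every pair `(T, S)`.
-/

namespace Vale.Agent.Results.P257.A0Range

open P251.St (SHCat Susp)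
open P251CX P251CY.V

theorem result (n p : ℕ) (hp : p.Prime) (h5 : 5 ≤ p) (h : 2 ^ n < p) :
    (∃ (T : SHCat) (S : Susp T), Nonempty (IsSH T S.toSuspData) ∧ HasV S p n ∧ HasTower S p n) ∧
      ∀ (T : SHCat) (S : Susp T), HasV S p n ∧ HasTower S p n :=
  ⟨N257.top.1.imp fun T hT => hT.imp fun S hS => ⟨hS, (N257.top.2 T S n p hp).1 h5 (Or.inl h)⟩,
    fun T S => (N257.top.2 T S n p hp).1 h5 (Or.inl h)⟩

end Vale.Agent.Results.P257.A0Range
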